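import Vale.Agent.P098.Basic

/-! Definitions for the regularity theory of minimizers (removal of the assumption
`IsRegularAwayFromZero`). -/

open MeasureTheory Set Metric Filter
open scoped ContDiff RealInnerProductSpace Topology NNReal

namespace Vale.Agent.P098

variable {d : ℕ}

/-- The positivity set. -/
abbrev pos (u : E d → ℝ) : Set (E d) := {x | 0 < u x}

/-- Nonnegative `L`-Lipschitz minimizers (against compactly supported Lipschitz perturbations). -/
structure MinL (L : ℝ≥0) (u : E d → ℝ) : Prop where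
  lip : LipschitzWith L u
  nonneg : ∀ x, 0 ≤ u x
  min : LipMin u

/-- Classically harmonic functions on a set. -/
def Harm (s : Set (E d)) (f : E d → ℝ) : Prop := ContDiffOn ℝ ∞ f s ∧ ∀ x ∈ s, lap f x = 0

/-- Positive one-homogeneity (everywhere). -/
def Hom1 (u : E d → ℝ) : Prop := ∀ r : ℝ, 0 < r → ∀ x, u (r • x) = r * u x

/-- A radial kernel supported in the unit ball. -/
noncomputable def mk (y : E d) : ℝ := Real.smoothTransition (2 - 2 * ‖y‖ ^ 2)

/-- The radial average of `f` at `x` at scale `r`. -/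
noncomputable def av (f : E d → ℝ) (r : ℝ) (x : E d) : ℝ :=
  (∫ y : E d, mk y * f (x + r • y)) / ∫ y : E d, mk y

/-- Nondegeneracy with constant `c`. -/
def NonDeg (c : ℝ) (u : E d → ℝ) : Prop :=
  ∀ x, 0 < u x → ∀ r : ℝ, 0 < r → ∃ y ∈ closedBall x r, c * r ≤ u y

/-- `u` is trapped between `(P + a)₊` and `(P + b)₊` in the ball `B(x₀, r)`. -/
def Trap (u P : E d → ℝ) (a b : ℝ) (x₀ : E d) (r : ℝ) : Prop :=
  ∀ x ∈ ball x₀ r, max (P x + a) 0 ≤ u x ∧ u x ≤ max (P x + b) 0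

/-- The rescaling `x ↦ u (x₀ + r x) / r`. -/
noncomputable def resc (u : E d → ℝ) (x₀ : E d) (r : ℝ) (x : E d) : ℝ := u (x₀ + r • x) / r

/-- Weiss' energy with a smooth weight, centred at the origin. -/
noncomputable def weiss (u : E d → ℝ) (r : ℝ) : ℝ :=
  (∫ y : E d, (‖fderiv ℝ u (r • y)‖ ^ 2 + (pos u).indicator (fun _ => (1 : ℝ)) (r • y))
      * max (1 - ‖y‖ ^ 2) 0 ^ 3)
    - ∫ y : E d, (u (r • y) / r) ^ 2 * (6 * max (1 - ‖y‖ ^ 2) 0 ^ 2)

/-! ### Polynomials -/

/-- Evaluation of a polynomial at a point of `E d`. -/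
noncomputable def ev (p : MvPolynomial (Fin d) ℝ) (x : E d) : ℝ :=
  MvPolynomial.eval (fun i => x i) p

/-- The coefficient norm. -/
noncomputable def cn (p : MvPolynomial (Fin d) ℝ) : ℝ := ∑ m ∈ p.support, |p.coeff m|

/-- The Laplacian of a polynomial. -/
noncomputable def lapP (p : MvPolynomial (Fin d) ℝ) : MvPolynomial (Fin d) ℝ :=
  ∑ i, MvPolynomial.pderiv i (MvPolynomial.pderiv i p)

/-- `|∇P|² - 1 - P Q`. -/
noncomputable def remP (P Q : MvPolynomial (Fin d) ℝ) : MvPolynomial (Fin d) ℝ :=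
  ∑ i, MvPolynomial.pderiv i P ^ 2 - 1 - P * Q

/-- All coefficients of degree `< K` vanish. -/
def LowZero (K : ℕ) (R : MvPolynomial (Fin d) ℝ) : Prop :=
  ∀ m : Fin d →₀ ℕ, m.degree < K → R.coeff m = 0

/-- Even in the variable `X 0`. -/
def EvenP {n : ℕ} (p : MvPolynomial (Fin (n + 1)) ℝ) : Prop :=
  ∀ m, p.coeff m ≠ 0 → Even (m 0)

/-- Approximate solutions: `P` harmonic of degree `≤ K`, `P(0) = 0`, and `|∇P|² - 1` vanishes to
order `K` on `{P = 0}` (with the polynomial `Q` as witness). -/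
structure AdmS {n : ℕ} (K : ℕ) (P Q : MvPolynomial (Fin (n + 1)) ℝ) : Prop where
  degP : P.totalDegree ≤ K
  degQ : Q.totalDegree ≤ K
  harm : lapP P = 0
  zero : P.coeff 0 = 0
  low : LowZero K (remP P Q)

/-- The reflection `x₀ ↦ -x₀`. -/
noncomputable def flip0 {n : ℕ} (x : E (n + 1)) : E (n + 1) := x - (2 * x 0) • ee 0

/-- Flatness of all homogeneous minimizers in dimension `d`. -/
def FL (d : ℕ) : Prop := ∀ (L : ℝ≥0) (u : E d → ℝ), MinL L u → Hom1 u →
  (∀ x, u x = 0) ∨ ∃ e : E d, ‖e‖ = 1 ∧ ∀ x, u x = max ⟪x, e⟫ 0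

end Vale.Agent.P098
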