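import Mathlib

/-! # The definitions of the final statement, for a general Euclidean space `V` -/

open MeasureTheory Set Metric
open scoped ContDiff RealInnerProductSpace

namespace Vale.Agent.P098.FDefs

variable {V : Type} [NormedAddCommGroup V] [InnerProductSpace ℝ V] [FiniteDimensional ℝ V]
  [MeasurableSpace V] [BorelSpace V]

/-- `g` is the weak gradient of `v` on the open set `B`. -/
def IsWeakGrad (B : Set V) (v : V → ℝ) (g : V → V) : Prop :=
  ∀ φ : V → ℝ, ContDiff ℝ ∞ φ → HasCompactSupport φ → tsupport φ ⊆ B →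
    ∀ e : V, ∫ x in B, v x * fderiv ℝ φ x e = - ∫ x in B, ⟪g x, e⟫ * φ x

/-- `v ∈ H¹(B)`, with weak gradient `g`. -/
def MemH1 (B : Set V) (v : V → ℝ) (g : V → V) : Prop :=
  MemLp v 2 (volume.restrict B) ∧ MemLp g 2 (volume.restrict B) ∧ IsWeakGrad B v g

/-- `w ∈ H¹₀(B)`, with weak gradient `h`: `w` is a limit in `H¹(B)` of test functions
supported in `B`. -/
def MemH10 (B : Set V) (w : V → ℝ) (h : V → V) : Prop :=
  MemH1 B w h ∧ ∀ ε : ℝ, 0 < ε → ∃ φ : V → ℝ,
    ContDiff ℝ ∞ φ ∧ HasCompactSupport φ ∧ tsupport φ ⊆ B ∧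
      (∫ x in B, (w x - φ x) ^ 2) + (∫ x in B, ‖h x - gradient φ x‖ ^ 2) < ε

/-- The one-phase Bernoulli energy on `B` of `v` with weak gradient `g`. -/
noncomputable def energy (B : Set V) (v : V → ℝ) (g : V → V) : ℝ :=
  ∫ x in B, (‖g x‖ ^ 2 + {y | 0 < v y}.indicator (fun _ => (1 : ℝ)) x)

/-- `u` is a global minimizer of the one-phase Bernoulli energy: `u ≥ 0`, `u ∈ H¹` of every ball,
and on every ball `u` minimizes the energy among nonnegative `H¹` functions with the same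
boundary values. -/
def IsGlobalMinimizer (u : V → ℝ) : Prop :=
  (∀ x, 0 ≤ u x) ∧ ∃ g : V → V, ∀ (x₀ : V) (r : ℝ), 0 < r →
    MemH1 (ball x₀ r) u g ∧
    ∀ (v : V → ℝ) (gv : V → V), (∀ x, 0 ≤ v x) → MemH1 (ball x₀ r) v gv →
      MemH10 (ball x₀ r) (fun x => v x - u x) (fun x => gv x - g x) →
      energy (ball x₀ r) u g ≤ energy (ball x₀ r) v gv

/-- `u` is positively one-homogeneous. -/
def IsOneHomogeneous (u : V → ℝ) : Prop :=
  ∀ r : ℝ, 0 < r → ∀ᵐ x : V, u (r • x) = r * u x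

end Vale.Agent.P098.FDefs
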