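import Vale.Agent.P098.R.Defs

/-! # H1: radial means of harmonic functions

Proof of `Harm.radial_mean`. Case `r = 0` is trivial. Put `F s = ∫ θ(|y|²) f(x + s y) dy` for
`0 ≤ s ≤ r`. As `θ(|y|²) = 0` for `|y| ≥ 1`, only values of `f` on `closedBall x r ⊆ ball x R`
matter (multiply `f` by a cutoff to get a global smooth function if convenient).
`F' s = ∫ θ(|y|²) ∇f(x + s y)·y dy`. Let `Θ(t) = ∫_t^1 θ`; `Θ` is smooth, `Θ t = 0` for `t ≥ 1`,
and `∇_y [Θ(|y|²)] = -2 θ(|y|²) y`. Integration by parts: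
`F' s = -½ ∫ ∇f(x+sy)·∇_y Θ(|y|²) dy = ½ s ∫ Δf(x+sy) Θ(|y|²) dy = 0`. So `F` is constant on
`[0, r]` and `F 0 = f x ∫ θ(|y|²) dy`. For `av_eq` use `θ t = Real.smoothTransition (2 - 2 t)`. -/

open MeasureTheory Set Metric Filter
open scoped ContDiff RealInnerProductSpace Topology NNReal

namespace Vale.Agent.P098

variable {d : ℕ}

theorem mk_contDiff : ContDiff ℝ ∞ (mk : E d → ℝ) := by
  unfold mk
  exact Real.smoothTransition.contDiff.comp
    (contDiff_const.sub (contDiff_const.mul (contDiff_norm_sq ℝ)))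

theorem mk_nonneg (y : E d) : 0 ≤ mk y := Real.smoothTransition.nonneg _

theorem mk_le_one (y : E d) : mk y ≤ 1 := Real.smoothTransition.le_one _

theorem mk_eq_zero {y : E d} (hy : 1 ≤ ‖y‖) : mk y = 0 :=
  Real.smoothTransition.zero_of_nonpos (by (clear * - hy; nlinarith))

theorem mk_eq_one {y : E d} (hy : ‖y‖ ^ 2 ≤ 1 / 2) : mk y = 1 :=
  Real.smoothTransition.one_of_one_le (by (clear * - hy; linarith))

theorem mk_hasCompactSupport : HasCompactSupport (mk : E d → ℝ) := by
  refine HasCompactSupport.intro (isCompact_closedBall (0 : E d) 1) fun y hy => ?_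
  refine mk_eq_zero ?_
  rw [mem_closedBall_zero_iff, not_le] at hy
  exact hy.le

theorem mk_integral_pos : 0 < ∫ y : E d, mk y := by
  refine Continuous.integral_pos_of_hasCompactSupport_nonneg_nonzero (x := 0)
    mk_contDiff.continuous mk_hasCompactSupport mk_nonneg ?_
  rw [mk_eq_one (by simp only [norm_zero, ne_eq, OfNat.ofNat_ne_zero, not_false_eq_true, zero_pow, one_div, inv_nonneg, Nat.ofNat_nonneg])]
  exact one_ne_zero

theorem rH1_lap_congr {c c' : E d → ℝ} {x : E d} (h : c =ᶠ[𝓝 x] c') : lap c x = lap c' x := by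
  unfold lap P2
  refine Finset.sum_congr rfl fun i _ => ?_
  have h1 : P1 c i =ᶠ[𝓝 x] P1 c' i := by
    filter_upwards [h.eventuallyEq_nhds] with y hy
    unfold P1
    rw [hy.fderiv_eq]
  rw [h1.fderiv_eq]

/-- Cutoff of a harmonic function. -/
theorem rH1_cutoff {f : E d → ℝ} {x : E d} {R r : ℝ} (hf : Harm (ball x R) f)
    (hr : 0 ≤ r) (hrR : r < R) : ∃ g : E d → ℝ, ContDiff ℝ ∞ g ∧ HasCompactSupport g ∧
      (∀ z ∈ closedBall x r, g z = f z) ∧ ∀ z ∈ closedBall x r, lap g z = 0 := by
  let χ : ContDiffBump x := ⟨(2 * r + R) / 3, (r + 2 * R) / 3, by linarith only [hr, hrR], by linarith⟩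
  have hχ1 : ∀ z ∈ ball x ((2 * r + R) / 3), χ z = 1 := fun z hz =>
    χ.one_of_mem_closedBall (ball_subset_closedBall hz)
  have hs : tsupport χ = closedBall x ((r + 2 * R) / 3) := χ.tsupport_eq
  have heq : ∀ z ∈ closedBall x r, (fun z => χ z * f z) =ᶠ[𝓝 z] f := by
    intro z hz
    have hz' : z ∈ ball x ((2 * r + R) / 3) := by
      rw [mem_closedBall] at hz; rw [mem_ball]; linarith only [hrR, hz]
    filter_upwards [isOpen_ball.mem_nhds hz'] with w hw
    rw [hχ1 w hw, one_mul]
  refine ⟨fun z => χ z * f z, ?_, ?_, ?_, ?_⟩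
  · rw [contDiff_iff_contDiffAt]
    intro z
    by_cases hz : z ∈ tsupport χ
    · rw [hs, mem_closedBall] at hz
      have hzR : z ∈ ball x R := by rw [mem_ball]; linarith only [hrR, hz]
      exact χ.contDiff.contDiffAt.mul (hf.1.contDiffAt (isOpen_ball.mem_nhds hzR))
    · refine (contDiffAt_const (c := (0 : ℝ))).congr_of_eventuallyEq ?_
      filter_upwards [(isClosed_tsupport χ).isOpen_compl.mem_nhds hz] with w hw
      rw [image_eq_zero_of_notMem_tsupport hw, zero_mul]
  · exact χ.hasCompactSupport.mul_right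
  · intro z hz
    exact (heq z hz).eq_of_nhds
  · intro z hz
    rw [rH1_lap_congr (heq z hz)]
    refine hf.2 z ?_
    rw [mem_closedBall] at hz; rw [mem_ball]; linarith only [hrR, hz]

theorem rH1_P1_contDiff {g : E d → ℝ} (hg : ContDiff ℝ ∞ g) (i : Fin d) :
    ContDiff ℝ ∞ (P1 g i) :=
  (hg.fderiv_right (m := ∞) (by norm_cast)).clm_apply contDiff_const

/-- A primitive of a radial kernel. -/
theorem rH1_primitive {θ : ℝ → ℝ} (hθ : ContDiff ℝ ∞ θ) (hθ0 : ∀ t, 1 ≤ t → θ t = 0) :
    ∃ W : E d → ℝ, Differentiable ℝ W ∧ (∀ y, 1 ≤ ‖y‖ → W y = 0) ∧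
      ∀ y v, fderiv ℝ W y v = -2 * θ (‖y‖ ^ 2) * ⟪y, v⟫ := by
  have hd : ∀ y : E d, HasFDerivAt (fun y : E d => -∫ t in (1 : ℝ)..‖y‖ ^ 2, θ t)
      (-(θ (‖y‖ ^ 2) • (2 • innerSL ℝ y))) y := by
    intro y
    have h := (hθ.continuous.integral_hasStrictDerivAt 1 (‖y‖ ^ 2)).hasDerivAt.comp_hasFDerivAt y
      (hasStrictFDerivAt_norm_sq y).hasFDerivAt
    exact h.fun_neg
  refine ⟨fun y => -∫ t in (1 : ℝ)..‖y‖ ^ 2, θ t, fun y => (hd y).differentiableAt, ?_, ?_⟩
  · intro y hy
    have h1 : (1 : ℝ) ≤ ‖y‖ ^ 2 := by nlinarith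
    rw [neg_eq_zero]
    refine intervalIntegral.integral_zero_ae (Filter.Eventually.of_forall fun t ht => ?_)
    rw [uIoc_of_le h1] at ht
    exact hθ0 t ht.1.le
  · intro y v
    rw [(hd y).fderiv]
    simp only [neg_apply, smul_apply, innerSL_apply_apply, nsmul_eq_mul, smul_eq_mul]
    push_cast
    ring

theorem rH1_deriv {g : E d → ℝ} (hg : ContDiff ℝ ∞ g) (hgs : HasCompactSupport g) {w : E d → ℝ}
    (hw : Continuous w) (hws : HasCompactSupport w) (x : E d) (s : ℝ) :
    HasDerivAt (fun s : ℝ => ∫ y : E d, w y * g (x + s • y))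
      (∫ y : E d, w y * fderiv ℝ g (x + s • y) y) s := by
  have hg1 : ContDiff ℝ 1 g := hg.of_le (by norm_cast)
  have hg' : Continuous (fderiv ℝ g) := hg1.continuous_fderiv one_ne_zero
  obtain ⟨C, hC⟩ := hgs.fderiv (𝕜 := ℝ) |>.exists_bound_of_continuous hg'
  have hcont : ∀ s : ℝ, Continuous fun y : E d => x + s • y := fun s => by fun_prop
  refine (hasDerivAt_integral_of_dominated_loc_of_deriv_le (s := univ)
    (F := fun (s : ℝ) (y : E d) => w y * g (x + s • y))
    (F' := fun (s : ℝ) (y : E d) => w y * fderiv ℝ g (x + s • y) y)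
    (bound := fun y => |w y| * (C * ‖y‖)) Filter.univ_mem ?_ ?_ ?_ ?_ ?_ ?_).2
  · exact Filter.Eventually.of_forall fun s =>
      (hw.mul (hg1.continuous.comp (hcont s))).aestronglyMeasurable
  · exact (hw.mul (hg1.continuous.comp (hcont s))).integrable_of_hasCompactSupport hws.mul_right
  · exact (hw.mul ((hg'.comp (hcont s)).clm_apply continuous_id)).aestronglyMeasurable
  · refine Filter.Eventually.of_forall fun y s _ => ?_
    rw [norm_mul, Real.norm_eq_abs]
    refine mul_le_mul_of_nonneg_left ?_ (abs_nonneg _)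
    exact (ContinuousLinearMap.le_opNorm _ _).trans
      (mul_le_mul_of_nonneg_right (hC _) (norm_nonneg _))
  · refine Continuous.integrable_of_hasCompactSupport (by fun_prop) ?_
    exact (hws.comp_left (g := fun t : ℝ => |t|) abs_zero).mul_right
  · refine Filter.Eventually.of_forall fun y s _ => ?_
    have h1 : HasDerivAt (fun s : ℝ => x + s • y) y s := by
      simpa using ((hasDerivAt_id s).smul_const y).const_add x
    exact (((hg1.differentiable one_ne_zero _).hasFDerivAt).comp_hasDerivAt s h1).const_mul (w y)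

theorem rH1_clm (L : E d →L[ℝ] ℝ) (y : E d) : L y = ∑ i, y i * L (ee i) := by
  conv_lhs => rw [← (EuclideanSpace.basisFun (Fin d) ℝ).sum_repr y]
  simp only [EuclideanSpace.basisFun_repr, EuclideanSpace.basisFun_apply, map_sum, map_smul, smul_eq_mul]

/-- The derivative vanishes. -/
theorem rH1_zero {g : E d → ℝ} (hg : ContDiff ℝ ∞ g) {x : E d} {r s : ℝ}
    (hs : |s| ≤ r) (hlap : ∀ z ∈ closedBall x r, lap g z = 0)
    {θ : ℝ → ℝ} (hθ : ContDiff ℝ ∞ θ) (hθ0 : ∀ t, 1 ≤ t → θ t = 0) :
    ∫ y : E d, θ (‖y‖ ^ 2) * fderiv ℝ g (x + s • y) y = 0 := by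
  obtain ⟨W, hWd, hW0, hW'⟩ := rH1_primitive (d := d) hθ hθ0
  have hWs : HasCompactSupport W := by
    refine HasCompactSupport.intro (isCompact_closedBall (0 : E d) 1) fun y hy => hW0 y ?_
    rw [mem_closedBall_zero_iff, not_le] at hy
    exact hy.le
  have hws : HasCompactSupport (fun y : E d => θ (‖y‖ ^ 2)) := by
    refine HasCompactSupport.intro (isCompact_closedBall (0 : E d) 1) fun y hy => hθ0 _ ?_
    rw [mem_closedBall_zero_iff, not_le] at hy
    nlinarith only [hy]
  have hwc : Continuous (fun y : E d => θ (‖y‖ ^ 2)) := by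
    have := hθ.continuous; fun_prop
  have hcont : Continuous fun y : E d => x + s • y := by fun_prop
  have hG : ∀ i, ContDiff ℝ ∞ fun y : E d => P1 g i (x + s • y) := fun i =>
    (rH1_P1_contDiff hg i).comp (contDiff_const.add (contDiff_id.const_smul s))
  have hG' : ∀ i (y : E d), fderiv ℝ (fun y : E d => P1 g i (x + s • y)) y (ee i) =
      s * P2 g i i (x + s • y) := by
    intro i y
    have h1 : HasFDerivAt (fun y : E d => x + s • y) (s • ContinuousLinearMap.id ℝ (E d)) y := by
      simpa using ((hasFDerivAt_id y).const_smul s).const_add x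
    have h2 : HasFDerivAt (P1 g i) (fderiv ℝ (P1 g i) (x + s • y)) (x + s • y) :=
      ((rH1_P1_contDiff hg i).differentiable (by simp) _).hasFDerivAt
    have h3 : HasFDerivAt (fun y : E d => P1 g i (x + s • y))
        ((fderiv ℝ (P1 g i) (x + s • y)).comp (s • ContinuousLinearMap.id ℝ (E d))) y :=
      HasFDerivAt.comp (g := P1 g i) y h2 h1
    rw [h3.fderiv]
    simp [P2]
  have hexp : ∀ y : E d, θ (‖y‖ ^ 2) * fderiv ℝ g (x + s • y) y =
      ∑ i, (-1 / 2) * (P1 g i (x + s • y) * fderiv ℝ W y (ee i)) := by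
    intro y
    have h1 : fderiv ℝ g (x + s • y) y = ∑ i, y i * P1 g i (x + s • y) := rH1_clm _ y
    rw [h1, Finset.mul_sum]
    refine Finset.sum_congr rfl fun i _ => ?_
    rw [hW']
    simp only [ee, EuclideanSpace.inner_single_right]
    simp only [neg_mul, Real.ringHom_apply, one_mul, mul_neg]
    ring
  have hint : ∀ i, ∫ y : E d, P1 g i (x + s • y) * fderiv ℝ W y (ee i) =
      - ∫ y : E d, (s * P2 g i i (x + s • y)) * W y := by
    intro i
    have hWc : Continuous W := hWd.continuous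
    have hW'c : Continuous fun y => fderiv ℝ W y (ee i) := by
      simp_rw [hW']
      fun_prop
    have hW's : HasCompactSupport fun y => fderiv ℝ W y (ee i) := hWs.fderiv_apply ℝ (ee i)
    have hP2c : Continuous fun y : E d => s * P2 g i i (x + s • y) := by
      have : Continuous (P2 g i i) := (rH1_P1_contDiff (rH1_P1_contDiff hg i) i).continuous
      fun_prop
    rw [integral_mul_fderiv_eq_neg_fderiv_mul_of_integrable]
    · simp_rw [hG']
    · simp_rw [hG']
      exact (hP2c.mul hWc).integrable_of_hasCompactSupport hWs.mul_left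
    · exact ((hG i).continuous.mul hW'c).integrable_of_hasCompactSupport hW's.mul_left
    · exact ((hG i).continuous.mul hWc).integrable_of_hasCompactSupport hWs.mul_left
    · exact fun y _ => (hG i).differentiable (by simp) y
    · exact fun y _ => hWd y
  have hP2c : ∀ i, Continuous fun y : E d => s * P2 g i i (x + s • y) := by
    intro i
    have : Continuous (P2 g i i) := (rH1_P1_contDiff (rH1_P1_contDiff hg i) i).continuous
    fun_prop
  have hW'c : ∀ i, Continuous fun y => fderiv ℝ W y (ee i) := by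
    intro i
    simp_rw [hW']
    fun_prop
  have hint' : ∀ i, Integrable fun y : E d =>
      (-1 / 2) * (P1 g i (x + s • y) * fderiv ℝ W y (ee i)) := fun i =>
    (((hG i).continuous.mul (hW'c i)).integrable_of_hasCompactSupport
      ((hWs.fderiv_apply ℝ (ee i)).mul_left)).const_mul _
  simp_rw [hexp]
  rw [integral_finsetSum _ fun i _ => hint' i]
  simp_rw [integral_const_mul, hint, mul_neg]
  have hint2 : ∀ i, Integrable fun y : E d => s * P2 g i i (x + s • y) * W y := fun i =>
    ((hP2c i).mul hWd.continuous).integrable_of_hasCompactSupport hWs.mul_left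
  rw [Finset.sum_neg_distrib, ← Finset.mul_sum, ← integral_finsetSum _ fun i _ => hint2 i]
  have hz : ∀ y : E d, ∑ i, (s * P2 g i i (x + s • y)) * W y = 0 := by
    intro y
    by_cases hy : 1 ≤ ‖y‖
    · simp only [hW0 y hy, mul_zero, Finset.sum_const_zero]
    · push Not at hy
      have h1 : lap g (x + s • y) = 0 := by
        refine hlap _ ?_
        rw [mem_closedBall, dist_eq_norm, add_sub_cancel_left, norm_smul, Real.norm_eq_abs]
        nlinarith only [hs, hy, abs_nonneg s]
      rw [← Finset.sum_mul, ← Finset.mul_sum]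
      change s * lap g (x + s • y) * W y = 0
      rw [h1, mul_zero, zero_mul]
  simp_rw [hz]
  simp

theorem Harm.radial_mean {f : E d → ℝ} {x : E d} {R r : ℝ} (hf : Harm (ball x R) f)
    (hr : 0 ≤ r) (hrR : r < R) {θ : ℝ → ℝ} (hθ : ContDiff ℝ ∞ θ) (hθ0 : ∀ t, 1 ≤ t → θ t = 0) :
    ∫ y : E d, θ (‖y‖ ^ 2) * f (x + r • y) = f x * ∫ y : E d, θ (‖y‖ ^ 2) := by
  obtain ⟨g, hg, hgs, hgf, hlap⟩ := rH1_cutoff hf hr hrR
  have hws : HasCompactSupport (fun y : E d => θ (‖y‖ ^ 2)) := by
    refine HasCompactSupport.intro (isCompact_closedBall (0 : E d) 1) fun y hy => hθ0 _ ?_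
    rw [mem_closedBall_zero_iff, not_le] at hy
    nlinarith only [hy]
  have hwc : Continuous (fun y : E d => θ (‖y‖ ^ 2)) := by
    have := hθ.continuous; fun_prop
  have hd := fun s => rH1_deriv hg hgs hwc hws x s
  have hconst := constant_of_has_deriv_right_zero (a := 0) (b := r)
    (f := fun s : ℝ => ∫ y : E d, θ (‖y‖ ^ 2) * g (x + s • y))
    (fun s _ => (hd s).continuousAt.continuousWithinAt) (fun s hs => by
      have h := (hd s).hasDerivWithinAt (s := Ici s)
      rwa [rH1_zero hg (by rw [abs_of_nonneg hs.1]; exact hs.2.le) hlap hθ hθ0] at h)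
    r ⟨hr, le_rfl⟩
  have hl : ∀ y : E d, θ (‖y‖ ^ 2) * f (x + r • y) = θ (‖y‖ ^ 2) * g (x + r • y) := by
    intro y
    by_cases hy : 1 ≤ ‖y‖
    · rw [hθ0 _ (by nlinarith only [hy])]; simp
    · push Not at hy
      rw [hgf]
      rw [mem_closedBall, dist_eq_norm, add_sub_cancel_left, norm_smul, Real.norm_eq_abs,
        abs_of_nonneg hr]
      nlinarith only [hr, hy]
  simp_rw [hl]
  refine hconst.trans ?_
  have h0 : g x = f x := hgf x (mem_closedBall_self hr)
  simp only [zero_smul, add_zero]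
  rw [integral_mul_const, h0, mul_comm]

theorem Harm.av_eq {f : E d → ℝ} {x : E d} {R r : ℝ} (hf : Harm (ball x R) f)
    (hr : 0 ≤ r) (hrR : r < R) : av f r x = f x := by
  have h := hf.radial_mean hr hrR (θ := fun t => Real.smoothTransition (2 - 2 * t))
    (Real.smoothTransition.contDiff.comp (contDiff_const.sub (contDiff_const.mul contDiff_id)))
    (fun t ht => Real.smoothTransition.zero_of_nonpos (by linarith only [ht]))
  unfold av
  rw [div_eq_iff mk_integral_pos.ne']
  exact h

end Vale.Agent.P098
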