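import Vale.Agent.P098.R.H1

/-! # H3: Weyl's lemma

Let `k_ε(z) = ε^{-d} mk(z/ε) / I`, `I = ∫ mk`. For `x` with `closedBall x ε ⊆ Ω` put
`f_ε(x) = ∫ f(y) k_ε(x - y) dy`. `f_ε` is smooth there and `lap f_ε (x) = ∫ f(y) (Δ k_ε)(x-y) dy = 0`
since `y ↦ k_ε(x - y)` is a test function in `Ω`. So `f_ε` is harmonic. By `Harm.av_eq`,
`f_ε(x) = av f_ε δ x` when `closedBall x (ε+δ)` is inside `Ω` (slightly more), and by Fubini
`av f_ε δ x = ∫∫ f(y) k_ε(x + w - y) k_δ(w) dw dy` is symmetric in `(ε, δ)` (`mk` is even). Hence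
`f_ε = f_δ` near `x`. So `g(x) := f_ε(x)` (`ε` small, depending on `x`) is well defined and harmonic
on `Ω`. `f_ε → f` a.e. as `ε → 0` (Lebesgue points: e.g. `IsUnifLocDoublingMeasure` /
`Besicovitch.ae_tendsto…` average theorem, `|f_ε(x) - f(x)| ≤ C ⨍_{B(x,ε)} |f - f(x)|`), hence
`f = g` a.e. on `Ω`. -/

open MeasureTheory Set Metric Filter
open scoped ContDiff RealInnerProductSpace Topology NNReal Convolution

namespace Vale.Agent.P098

variable {d : ℕ}

/-- convolution of scalar functions -/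
noncomputable def rH3_cv (F κ : E d → ℝ) (x : E d) : ℝ := ∫ t, F t * κ (x - t)

theorem rH3_cv_eq (F κ : E d → ℝ) :
    rH3_cv F κ = F ⋆[ContinuousLinearMap.mul ℝ ℝ, volume] κ := rfl

theorem rH3_P1_contDiff {κ : E d → ℝ} (hκ : ContDiff ℝ ∞ κ) (i : Fin d) :
    ContDiff ℝ ∞ (P1 κ i) :=
  (hκ.fderiv_right (m := ∞) (by simp)).clm_apply contDiff_const

theorem rH3_P1_cs {κ : E d → ℝ} (hκ : HasCompactSupport κ) (i : Fin d) :
    HasCompactSupport (P1 κ i) := hκ.fderiv_apply (𝕜 := ℝ) _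

theorem rH3_cv_contDiff {F κ : E d → ℝ} (hF : LocallyIntegrable F) (hκ : ContDiff ℝ ∞ κ)
    (hc : HasCompactSupport κ) : ContDiff ℝ ∞ (rH3_cv F κ) :=
  hc.contDiff_convolution_right (ContinuousLinearMap.mul ℝ ℝ) hF hκ

theorem rH3_cv_P1 {F κ : E d → ℝ} (hF : LocallyIntegrable F) (hκ : ContDiff ℝ ∞ κ)
    (hc : HasCompactSupport κ) (i : Fin d) : P1 (rH3_cv F κ) i = rH3_cv F (P1 κ i) := by
  funext x
  have h1 := (hc.hasFDerivAt_convolution_right (ContinuousLinearMap.mul ℝ ℝ) hF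
    (hκ.of_le (by simp only [WithTop.one_le_coe, le_top])) x).fderiv
  unfold P1
  rw [rH3_cv_eq, h1, convolution_precompR_apply _ hF (hc.fderiv ℝ)
    (hκ.continuous_fderiv (by simp))]
  rfl

theorem rH3_cv_int {F κ : E d → ℝ} (hF : LocallyIntegrable F) (hκ : Continuous κ)
    (hc : HasCompactSupport κ) (x : E d) : Integrable fun t => F t * κ (x - t) :=
  hc.convolutionExists_right (ContinuousLinearMap.mul ℝ ℝ) hF hκ x

theorem rH3_cv_lap {F κ : E d → ℝ} (hF : LocallyIntegrable F) (hκ : ContDiff ℝ ∞ κ)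
    (hc : HasCompactSupport κ) (x : E d) :
    lap (rH3_cv F κ) x = ∫ t, F t * lap κ (x - t) := by
  have h2 : ∀ i j, P2 (rH3_cv F κ) i j = rH3_cv F (P2 κ i j) := by
    intro i j
    change P1 (P1 (rH3_cv F κ) i) j = rH3_cv F (P1 (P1 κ i) j)
    rw [rH3_cv_P1 hF hκ hc, rH3_cv_P1 hF (rH3_P1_contDiff hκ i) (rH3_P1_cs hc i)]
  unfold lap
  simp_rw [h2, Finset.mul_sum]
  rw [integral_finsetSum]
  · rfl
  · intro i _
    exact rH3_cv_int hF (rH3_P1_contDiff (rH3_P1_contDiff hκ i) i).continuous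
      (rH3_P1_cs (rH3_P1_cs hc i) i) x

theorem rH3_P1_refl {κ : E d → ℝ} (hκ : Differentiable ℝ κ) (x t : E d) (i : Fin d) :
    P1 (fun s => κ (x - s)) i t = - P1 κ i (x - t) := by
  have h1 : HasFDerivAt (fun s : E d => x - s) (-(ContinuousLinearMap.id ℝ (E d))) t :=
    (hasFDerivAt_id t).const_sub x
  have h2 : HasFDerivAt (fun s => κ (x - s)) ((fderiv ℝ κ (x - t)).comp
      (-(ContinuousLinearMap.id ℝ (E d)))) t :=
    (hκ (x - t)).hasFDerivAt.comp t h1
  unfold P1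
  rw [h2.fderiv]
  simp

theorem rH3_lap_refl {κ : E d → ℝ} (hκ : ContDiff ℝ ∞ κ) (x t : E d) :
    lap (fun s => κ (x - s)) t = lap κ (x - t) := by
  unfold lap
  refine Finset.sum_congr rfl fun i _ => ?_
  change P1 (P1 (fun s => κ (x - s)) i) i t = P1 (P1 κ i) i (x - t)
  have h1 : P1 (fun s => κ (x - s)) i = fun s => (fun w => - P1 κ i w) (x - s) := by
    funext s
    exact rH3_P1_refl (hκ.differentiable (by simp)) x s i
  have hd : Differentiable ℝ (P1 κ i) := (rH3_P1_contDiff hκ i).differentiable (by simp)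
  rw [h1, rH3_P1_refl (κ := fun w => - P1 κ i w) hd.neg]
  unfold P1
  rw [show (fun w => -(fderiv ℝ κ w) (ee i)) = -(fun w => (fderiv ℝ κ w) (ee i)) from rfl,
    fderiv_neg]
  simp only [neg_apply, neg_neg]

/-- the rescaled kernel -/
noncomputable def rH3_k (ε : ℝ) (z : E d) : ℝ :=
  (|(ε ^ d)⁻¹| / ∫ y : E d, mk y) * mk (ε⁻¹ • z)

theorem rH3_mk_neg (z : E d) : mk (-z) = mk z := by
  unfold mk
  rw [norm_neg]

theorem rH3_k_contDiff (ε : ℝ) : ContDiff ℝ ∞ (rH3_k ε : E d → ℝ) :=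
  contDiff_const.mul (mk_contDiff.comp (contDiff_const_smul _))

theorem rH3_k_zero {ε : ℝ} (hε : 0 < ε) {z : E d} (hz : ε ≤ ‖z‖) : rH3_k ε z = 0 := by
  unfold rH3_k
  rw [mk_eq_zero, mul_zero]
  rw [norm_smul, norm_inv, Real.norm_eq_abs, abs_of_pos hε, ← div_eq_inv_mul, le_div_iff₀ hε,
    one_mul]
  exact hz

theorem rH3_k_cs {ε : ℝ} (hε : 0 < ε) : HasCompactSupport (rH3_k ε : E d → ℝ) :=
  HasCompactSupport.intro (isCompact_closedBall (0 : E d) ε) fun z hz => by
    rw [mem_closedBall, dist_zero_right, not_le] at hz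
    exact rH3_k_zero hε hz.le

theorem rH3_av_eq {ε : ℝ} (hε : 0 < ε) (F : E d → ℝ) : av F ε = rH3_cv F (rH3_k ε) := by
  funext x
  unfold av rH3_cv rH3_k
  rw [← integral_add_left_eq_self (fun t => F t * (|(ε ^ d)⁻¹| / (∫ y : E d, mk y) *
    mk (ε⁻¹ • (x - t)))) x]
  have h1 := Measure.integral_comp_smul (volume : Measure (E d))
    (fun z => mk (ε⁻¹ • z) * F (x + z)) ε
  rw [finrank_euclideanSpace_fin] at h1
  have h2 : ∀ z : E d, ε⁻¹ • ε • z = z := fun z => inv_smul_smul₀ hε.ne' z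
  simp only [h2] at h1
  rw [h1, smul_eq_mul]
  have h3 : ∀ z : E d, x - (x + z) = -z := fun z => by abel
  simp only [h3, smul_neg, rH3_mk_neg]
  rw [← integral_const_mul, ← integral_div]
  refine integral_congr_ae (Eventually.of_forall fun z => ?_)
  simp only
  ring

theorem rH3_av_comm {F : E d → ℝ} (hF : LocallyIntegrable F) {r ε : ℝ} (hr : 0 < r)
    (hε : 0 < ε) (x : E d) : av (av F r) ε x = av (av F ε) r x := by
  have hass : ∀ a b : ℝ, 0 < a → 0 < b → rH3_cv (rH3_cv F (rH3_k a)) (rH3_k b) x =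
      rH3_cv F (rH3_cv (rH3_k a) (rH3_k b)) x := by
    intro a b ha hb
    have ca := (rH3_k_contDiff (d := d) a).continuous
    have cb := (rH3_k_contDiff (d := d) b).continuous
    have sa := rH3_k_cs (d := d) ha
    have sb := rH3_k_cs (d := d) hb
    simp only [rH3_cv_eq]
    refine convolution_assoc (ContinuousLinearMap.mul ℝ ℝ) (ContinuousLinearMap.mul ℝ ℝ)
      (ContinuousLinearMap.mul ℝ ℝ) (ContinuousLinearMap.mul ℝ ℝ)
      (fun x y z => by simp only [ContinuousLinearMap.mul_apply', mul_assoc]) hF.aestronglyMeasurable ca.aestronglyMeasurable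
      cb.aestronglyMeasurable ?_ ?_ ?_
    · exact Eventually.of_forall fun y => sa.convolutionExists_right _ hF ca y
    · exact Eventually.of_forall fun y =>
        sb.norm.convolutionExists_right _ ca.norm.locallyIntegrable cb.norm y
    · exact (HasCompactSupport.convolution _ sa.norm sb.norm).convolutionExists_right _
        (fun x => (hF x).norm)
        (sb.norm.continuous_convolution_right _ ca.norm.locallyIntegrable cb.norm) x
  have hcomm : rH3_cv (rH3_k r : E d → ℝ) (rH3_k ε) = rH3_cv (rH3_k ε) (rH3_k r) := by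
    simp only [rH3_cv_eq]
    rw [← convolution_flip]
    congr 1
    ext
    simp only [ContinuousLinearMap.flip_mul, ContinuousLinearMap.mul_apply', mul_one]
  rw [rH3_av_eq hε, rH3_av_eq hr, rH3_av_eq hr, rH3_av_eq hε, hass r ε hr hε, hass ε r hε hr,
    hcomm]

theorem rH3_harm {F : E d → ℝ} (hF : LocallyIntegrable F) {x₀ : E d} {R ρ ε : ℝ} (hε : 0 < ε)
    (hρ : ρ + ε ≤ R)
    (h : ∀ φ : E d → ℝ, ContDiff ℝ ∞ φ → HasCompactSupport φ → tsupport φ ⊆ ball x₀ R →
      ∫ x, F x * lap φ x = 0) : Harm (ball x₀ ρ) (av F ε) := by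
  rw [rH3_av_eq hε]
  refine ⟨(rH3_cv_contDiff hF (rH3_k_contDiff ε) (rH3_k_cs hε)).contDiffOn, fun x hx => ?_⟩
  rw [rH3_cv_lap hF (rH3_k_contDiff ε) (rH3_k_cs hε)]
  have h1 : tsupport (fun s : E d => rH3_k ε (x - s)) ⊆ closedBall x ε := by
    refine closure_minimal (fun s hs => ?_) isClosed_closedBall
    rw [mem_closedBall, dist_eq_norm, ← norm_neg, neg_sub]
    by_contra hc
    exact hs (rH3_k_zero hε (not_le.1 hc).le)
  have h2 : closedBall x ε ⊆ ball x₀ R := by
    intro s hs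
    rw [mem_closedBall] at hs
    rw [mem_ball] at hx ⊢
    have := dist_triangle s x x₀
    linarith only [hρ, hx, hs, this]
  have h3 := h (fun s => rH3_k ε (x - s))
    ((rH3_k_contDiff ε).comp (contDiff_const.sub contDiff_id))
    (HasCompactSupport.of_support_subset_isCompact (isCompact_closedBall x ε)
      (subset_closure.trans h1)) (h1.trans h2)
  rw [← h3]
  refine integral_congr_ae (Eventually.of_forall fun t => ?_)
  simp only
  rw [rH3_lap_refl (rH3_k_contDiff ε)]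

theorem rH3_ae {F : E d → ℝ} (hF : LocallyIntegrable F) :
    ∀ᵐ x, Tendsto (fun n : ℕ => av F (1 / ((n : ℝ) + 1)) x) atTop (𝓝 (F x)) := by
  have hI : 0 < ∫ y : E d, mk y := mk_integral_pos
  filter_upwards [IsUnifLocDoublingMeasure.ae_tendsto_average_norm_sub volume hF 1] with x hx
  have hpos : ∀ n : ℕ, (0 : ℝ) < 1 / ((n : ℝ) + 1) := fun n => by positivity
  have hδ : Tendsto (fun n : ℕ => 1 / ((n : ℝ) + 1)) atTop (𝓝[>] 0) :=
    tendsto_nhdsWithin_iff.2 ⟨tendsto_one_div_add_atTop_nhds_zero_nat,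
      Eventually.of_forall hpos⟩
  have h1 := hx (fun _ => x) _ hδ (Eventually.of_forall fun n => by
    rw [mem_closedBall, dist_self, one_mul]; exact (hpos n).le)
  have h2 := tendsto_integral_smul_of_tendsto_average_norm_sub
    (g := fun (n : ℕ) (t : E d) => rH3_k (1 / ((n : ℝ) + 1)) (x - t))
    ((volume : Measure (E d)).real (ball 0 1) / ∫ y : E d, mk y) h1
    (Eventually.of_forall fun n => hF.integrableOn_isCompact (isCompact_closedBall _ _))
    (tendsto_const_nhds.congr fun n => ?_) (Eventually.of_forall fun n => ?_)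
    (Eventually.of_forall fun n t => ?_)
  · refine h2.congr fun n => ?_
    rw [rH3_av_eq (hpos n)]
    unfold rH3_cv
    refine integral_congr_ae (Eventually.of_forall fun t => ?_)
    simp only [smul_eq_mul]
    ring
  · have h3 := congrFun (rH3_av_eq (hpos n) (fun _ : E d => (1 : ℝ))) x
    unfold av rH3_cv at h3
    simp only [mul_one, one_mul] at h3
    rw [div_self hI.ne'] at h3
    exact h3
  · intro t ht
    rw [mem_closedBall, dist_eq_norm, ← norm_neg, neg_sub]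
    by_contra hc
    exact ht (rH3_k_zero (hpos n) (not_le.1 hc).le)
  · set ε : ℝ := 1 / ((n : ℝ) + 1) with hεdef
    have hε : 0 < ε := hpos n
    have hb : 0 < (volume : Measure (E d)).real (ball 0 1) :=
      ENNReal.toReal_pos (measure_ball_pos _ _ one_pos).ne' measure_ball_lt_top.ne
    rw [Measure.addHaar_real_closedBall _ _ hε.le, finrank_euclideanSpace_fin]
    unfold rH3_k
    rw [abs_mul, abs_div, abs_abs, abs_of_pos hI, abs_of_nonneg (mk_nonneg _), abs_inv,
      abs_of_pos (pow_pos hε d)]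
    calc (ε ^ d)⁻¹ / (∫ y : E d, mk y) * mk (ε⁻¹ • (x - t)) ≤
        (ε ^ d)⁻¹ / (∫ y : E d, mk y) * 1 :=
          mul_le_mul_of_nonneg_left (mk_le_one _) (by (clear * - hI; positivity))
      _ = _ := by
        (clear * - hb hI hε; field_simp)

theorem rH3_local {F : E d → ℝ} (hF : LocallyIntegrable F) {x₀ : E d} {r : ℝ} (hr : 0 < r)
    (h : ∀ φ : E d → ℝ, ContDiff ℝ ∞ φ → HasCompactSupport φ → tsupport φ ⊆ ball x₀ (4 * r) →
      ∫ x, F x * lap φ x = 0) :
    Harm (ball x₀ (3 * r)) (av F r) ∧ ∀ᵐ x, x ∈ ball x₀ r → F x = av F r x := by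
  have hH : Harm (ball x₀ (3 * r)) (av F r) := rH3_harm hF hr (by linarith) h
  refine ⟨hH, ?_⟩
  have hmono : ∀ {s t : Set (E d)} {g : E d → ℝ}, s ⊆ t → Harm t g → Harm s g :=
    fun hst hg => ⟨hg.1.mono hst, fun x hx => hg.2 x (hst hx)⟩
  have key : ∀ x ∈ ball x₀ r, ∀ ε : ℝ, 0 < ε → ε < r → av F ε x = av F r x := by
    intro x hx ε hε hεr
    have hsub : ball x (2 * r) ⊆ ball x₀ (3 * r) := by
      intro s hs
      rw [mem_ball] at hs hx ⊢
      have := dist_triangle s x x₀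
      linarith only [hx, hs, this]
    have hHε : Harm (ball x₀ (3 * r)) (av F ε) := rH3_harm hF hε (by linarith only [hεr]) h
    have e1 := Harm.av_eq (hmono hsub hH) hε.le (by linarith only [hε, hεr] : ε < 2 * r)
    have e2 := Harm.av_eq (hmono hsub hHε) hr.le (by linarith : r < 2 * r)
    rw [← e1, ← e2, rH3_av_comm hF hr hε]
  filter_upwards [rH3_ae hF] with x hx hxr
  refine tendsto_nhds_unique hx (tendsto_const_nhds.congr' ?_)
  have h1 : ∀ᶠ n : ℕ in atTop, 1 / ((n : ℝ) + 1) < r :=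
    tendsto_one_div_add_atTop_nhds_zero_nat.eventually (gt_mem_nhds hr)
  filter_upwards [h1] with n hn
  exact (key x hxr _ (by positivity) hn).symm

theorem rH3_lap_congr {f g : E d → ℝ} {x : E d} (h : f =ᶠ[𝓝 x] g) : lap f x = lap g x := by
  unfold lap
  refine Finset.sum_congr rfl fun i _ => ?_
  have h1 : P1 f i =ᶠ[𝓝 x] P1 g i := by
    filter_upwards [h.fderiv (𝕜 := ℝ)] with y hy
    unfold P1
    rw [hy]
  unfold P2
  rw [h1.fderiv_eq]

theorem weyl {Ω : Set (E d)} (hΩ : IsOpen Ω) {f : E d → ℝ} (hf : LocallyIntegrableOn f Ω)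
    (h : ∀ φ : E d → ℝ, ContDiff ℝ ∞ φ → HasCompactSupport φ → tsupport φ ⊆ Ω →
      ∫ x, f x * lap φ x = 0) :
    ∃ g : E d → ℝ, Harm Ω g ∧ ∀ᵐ x ∂(volume.restrict Ω), f x = g x := by
  have hloc : ∀ x₀ ∈ Ω, ∃ (r : ℝ) (G : E d → ℝ), 0 < r ∧ ball x₀ r ⊆ Ω ∧ Harm (ball x₀ r) G ∧
      ∀ᵐ x, x ∈ ball x₀ r → f x = G x := by
    intro x₀ hx₀
    obtain ⟨s, hs, hsΩ⟩ := Metric.isOpen_iff.1 hΩ x₀ hx₀
    set r : ℝ := s / 8 with hr
    have hr0 : 0 < r := by (clear * - hs; positivity)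
    have hcl : closedBall x₀ (4 * r) ⊆ Ω :=
      (closedBall_subset_ball (by rw [hr]; linarith only [hs])).trans hsΩ
    set F : E d → ℝ := (closedBall x₀ (4 * r)).indicator f with hFdef
    have hFi : Integrable F :=
      (integrable_indicator_iff measurableSet_closedBall).2
        (hf.integrableOn_compact_subset hcl (isCompact_closedBall _ _))
    have hw : ∀ φ : E d → ℝ, ContDiff ℝ ∞ φ → HasCompactSupport φ →
        tsupport φ ⊆ ball x₀ (4 * r) → ∫ x, F x * lap φ x = 0 := by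
      intro φ h1 h2 h3
      rw [← h φ h1 h2 (h3.trans (ball_subset_closedBall.trans hcl))]
      refine integral_congr_ae (Eventually.of_forall fun x => ?_)
      simp only
      by_cases hx : x ∈ closedBall x₀ (4 * r)
      · rw [hFdef, indicator_of_mem hx]
      · have h4 : x ∉ tsupport φ := fun hc => hx (ball_subset_closedBall (h3 hc))
        have h5 : φ =ᶠ[𝓝 x] fun _ => 0 := notMem_tsupport_iff_eventuallyEq.1 h4
        have h6 : lap φ x = 0 := by
          rw [rH3_lap_congr h5]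
          unfold lap P2 P1
          simp only [fderiv_fun_const, Pi.zero_apply, zero_apply, Finset.sum_const_zero]
        rw [h6, mul_zero, mul_zero]
    obtain ⟨hH, hae⟩ := rH3_local hFi.locallyIntegrable hr0 hw
    refine ⟨r, av F r, hr0, (ball_subset_ball (by linarith only [hr0])).trans
      (ball_subset_closedBall.trans hcl), ⟨hH.1.mono (ball_subset_ball (by linarith only [hr0])),
        fun x hx => hH.2 x (ball_subset_ball (by linarith only [hr0]) hx)⟩, ?_⟩
    filter_upwards [hae] with x hx hxr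
    rw [← hx hxr, hFdef, indicator_of_mem (ball_subset_closedBall
      (ball_subset_ball (by linarith only [hr0]) hxr))]
  choose! r G hr0 hrΩ hH hae using hloc
  have heq : ∀ x₀ ∈ Ω, ∀ x ∈ ball x₀ (r x₀), G x x = G x₀ x := by
    intro x₀ hx₀ x hx
    have hxΩ := hrΩ x₀ hx₀ hx
    have hxx : x ∈ ball x (r x) := mem_ball_self (hr0 x hxΩ)
    have hae2 : G x =ᵐ[volume.restrict (ball x₀ (r x₀) ∩ ball x (r x))] G x₀ := by
      rw [EventuallyEq, ae_restrict_iff' (measurableSet_ball.inter measurableSet_ball)]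
      filter_upwards [hae x₀ hx₀, hae x hxΩ] with y h1 h2 h3
      rw [← h1 h3.1, ← h2 h3.2]
    exact Measure.eqOn_open_of_ae_eq hae2 (isOpen_ball.inter isOpen_ball)
      ((hH x hxΩ).1.continuousOn.mono inter_subset_right)
      ((hH x₀ hx₀).1.continuousOn.mono inter_subset_left) ⟨hx, hxx⟩
  have hgerm : ∀ x₀ ∈ Ω, (fun x => G x x) =ᶠ[𝓝 x₀] G x₀ := by
    intro x₀ hx₀
    filter_upwards [ball_mem_nhds x₀ (hr0 x₀ hx₀)] with x hx
    exact heq x₀ hx₀ x hx
  refine ⟨fun x => G x x, ⟨fun x₀ hx₀ => ?_, fun x₀ hx₀ => ?_⟩, ?_⟩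
  · exact (((hH x₀ hx₀).1.contDiffAt (ball_mem_nhds x₀ (hr0 x₀ hx₀))).congr_of_eventuallyEq
      (hgerm x₀ hx₀)).contDiffWithinAt
  · rw [rH3_lap_congr (hgerm x₀ hx₀)]
    exact (hH x₀ hx₀).2 x₀ (mem_ball_self (hr0 x₀ hx₀))
  · rw [ae_restrict_iff' hΩ.measurableSet, ae_iff]
    refine measure_null_of_locally_null _ fun x hx => ?_
    have hxΩ : x ∈ Ω := by
      by_contra hc
      exact hx fun h => absurd h hc
    refine ⟨{x | ¬(x ∈ Ω → f x = G x x)} ∩ ball x (r x),
      inter_mem_nhdsWithin _ (ball_mem_nhds x (hr0 x hxΩ)), ?_⟩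
    have h1 := hae x hxΩ
    rw [ae_iff] at h1
    refine measure_mono_null (fun y hy => ?_) h1
    intro h2
    refine hy.1 fun hyΩ => ?_
    rw [h2 hy.2, heq x hxΩ y hy.2]

end Vale.Agent.P098
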